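import Vale.Agent.P052.Embed

/-- Borsuk's conjecture fails in every dimension `d ≥ 9`: there is a compact (so bounded) set of
positive diameter in Euclidean `d`-space that is not a union of `d + 1` subsets of strictly
smaller diameter. -/
theorem Vale.Agent.Results.P052.AllDimsFromNine.result :
    ∀ d : ℕ, 9 ≤ d → ∃ Y : Set (EuclideanSpace ℝ (Fin d)),
      IsCompact Y ∧ Bornology.IsBounded Y ∧ 0 < Metric.diam Y ∧
      ¬ ∃ S : Fin (d + 1) → Set (EuclideanSpace ℝ (Fin d)),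
        Y = ⋃ i, S i ∧ ∀ i, Metric.diam (S i) < Metric.diam Y := by
  intro d hd
  obtain ⟨k, rfl⟩ := Nat.exists_eq_add_of_le hd
  obtain ⟨Y, h1, h2, h3, h4⟩ := Vale.Agent.P052.borsuk_fails k
  refine ⟨Y, h1, h2, h3, ?_⟩
  rintro ⟨S, hS, hlt⟩
  obtain ⟨i, hi⟩ := h4 S hS
  exact absurd (hlt i) (not_lt.mpr hi)
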