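import Vale.Agent.P052.Embed

/-- Borsuk's conjecture fails in dimension nine: there is a compact (so bounded) set of positive
diameter in Euclidean nine-space that is not a union of ten subsets of strictly smaller
diameter. -/
theorem Vale.Agent.Results.P052.DimNine.result :
    ∃ Y : Set (EuclideanSpace ℝ (Fin 9)),
      IsCompact Y ∧ Bornology.IsBounded Y ∧ 0 < Metric.diam Y ∧
      ¬ ∃ S : Fin 10 → Set (EuclideanSpace ℝ (Fin 9)),
        Y = ⋃ i, S i ∧ ∀ i, Metric.diam (S i) < Metric.diam Y := by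
  obtain ⟨Y, h1, h2, h3, h4⟩ := Vale.Agent.P052.borsuk_fails 0
  refine ⟨Y, h1, h2, h3, ?_⟩
  rintro ⟨S, hS, hlt⟩
  obtain ⟨i, hi⟩ := h4 S hS
  exact absurd (hlt i) (not_lt.mpr hi)
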